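import Vale.Agent.N196T.Defs

/-!
# Counting lemmas
-/

namespace Vale.Agent.N196T

open Cardinal
open scoped Pointwise

/-- A map from a set of size continuum with countable fibres separates a family indexed by `ℝ`. -/
theorem exists_real_family {Q : Type} (f : (ℕ → Bool) → Q) (hf : ∀ q, (f ⁻¹' {q}).Countable) :
    ∃ a : ℝ → ℕ → Bool, ∀ s t, f (a s) = f (a t) → s = t := by
  have h1 : #(ℕ → Bool) ≤ #(Set.range f) * ℵ₀ :=
    mk_le_mk_mul_of_mk_preimage_le (Set.rangeFactorization f) fun q => by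
      rw [le_aleph0_iff_set_countable]
      refine (hf q.1).mono fun A hA => ?_
      exact congrArg Subtype.val hA
  have h2 : #(ℕ → Bool) = 𝔠 := by simp
  have h3 : #ℝ ≤ #(Set.range f) := by
    rw [mk_real]
    by_contra hlt
    rw [h2] at h1
    exact absurd (mul_lt_of_lt aleph0_le_continuum (not_le.1 hlt) aleph0_lt_continuum)
      (not_lt.2 h1)
  obtain ⟨e⟩ := (le_def _ _).1 h3
  choose a ha using fun t : ℝ => (e t).2
  exact ⟨a, fun s t h => e.injective (Subtype.ext (by rw [← ha s, ← ha t, h]))⟩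

theorem countable_of_fg {G : Type} [Group G] (h : Group.FG G) : Countable G := by
  obtain ⟨S, hS⟩ := h.out
  have h1 : Function.Surjective (FreeGroup.lift (fun x : S => (x : G))) := by
    rw [← MonoidHom.range_eq_top, FreeGroup.range_lift_eq_closure, Subtype.range_coe_subtype]
    exact hS
  exact h1.countable

theorem countable_end {G : Type} [Group G] (h : Group.FG G) : Countable (G →* G) := by
  have := countable_of_fg h
  obtain ⟨S, hS⟩ := h.out
  refine Function.Injective.countable (f := fun (φ : G →* G) (x : S) => φ x) fun φ ψ h => ?_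
  exact MonoidHom.eq_of_eqOn_dense hS fun x hx => congrFun h ⟨x, hx⟩

/-- The stabiliser of a point. -/
def stab {G : Type} [Group G] (ρ : G →* Equiv.Perm ℕ) (m : ℕ) : Subgroup G :=
  (MulAction.stabilizer (Equiv.Perm ℕ) m).comap ρ

theorem mem_stab {G : Type} [Group G] {ρ : G →* Equiv.Perm ℕ} {m : ℕ} {g : G} :
    g ∈ stab ρ m ↔ ρ g m = m := Iff.rfl

theorem two_trans {G : Type} [Group G] {ρ : G →* Equiv.Perm ℕ} (h : HighlyTransitive ρ.range)
    {a b c d : ℕ} (hab : a ≠ b) (hcd : c ≠ d) : ∃ g, ρ g a = c ∧ ρ g b = d := by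
  have hinj : ∀ {u v : ℕ}, u ≠ v → Function.Injective ![u, v] := by
    intro u v huv i j hij
    fin_cases i <;> fin_cases j <;> simp_all [eq_comm]
  obtain ⟨_, ⟨g, rfl⟩, hg⟩ := h 2 ![a, b] ![c, d] (hinj hab) (hinj hcd)
  exact ⟨g, hg 0, hg 1⟩

theorem coatom_stab {G : Type} [Group G] {ρ : G →* Equiv.Perm ℕ} (h : HighlyTransitive ρ.range)
    (m : ℕ) : IsCoatom (stab ρ m) := by
  constructor
  · intro htop
    obtain ⟨g, hg, -⟩ := two_trans h (a := m) (b := m + 1) (c := m + 1) (d := m) (by omega)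
      (by omega)
    have : g ∈ stab ρ m := htop ▸ Subgroup.mem_top g
    rw [mem_stab, hg] at this
    omega
  · intro K hK
    obtain ⟨k, hkK, hk⟩ := SetLike.exists_of_lt hK
    rw [eq_top_iff]
    intro g _
    by_cases hg : g ∈ stab ρ m
    · exact hK.le hg
    · obtain ⟨u, hu1, hu2⟩ := two_trans h (a := m) (b := ρ k m) (c := m) (d := ρ g m)
        (Ne.symm hk) (Ne.symm hg)
      have h1 : (u * k)⁻¹ * g ∈ stab ρ m := by
        rw [mem_stab, map_mul, map_inv, Equiv.Perm.mul_apply, Equiv.Perm.inv_eq_iff_eq, map_mul,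
          Equiv.Perm.mul_apply, hu2]
      have h2 := K.mul_mem (K.mul_mem (hK.le (show u ∈ stab ρ m from hu1)) hkK) (hK.le h1)
      rwa [mul_inv_cancel_left] at h2

theorem card_coatoms {G : Type} [Group G] [Countable G] (H : (ℕ → Bool) → Subgroup G)
    (hH : ∀ A, IsCoatom (H A)) (hinj : Function.Injective H) :
    #{K : Subgroup G // IsCoatom K} = 𝔠 := by
  apply le_antisymm
  · calc #{K : Subgroup G // IsCoatom K} ≤ #(Set G) :=
          mk_le_of_injective (f := fun K => (K.1 : Set G))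
            fun K K' h => Subtype.ext (SetLike.coe_injective h)
      _ = 2 ^ #G := mk_set
      _ ≤ 2 ^ ℵ₀ := power_le_power_left two_ne_zero mk_le_aleph0
      _ = 𝔠 := two_power_aleph0
  · calc 𝔠 = #(ℕ → Bool) := by simp
      _ ≤ _ := mk_le_of_injective (f := fun A => (⟨H A, hH A⟩ : {K : Subgroup G // IsCoatom K}))
          fun A B h => hinj (congrArg Subtype.val h)

/-- Continuum many pairwise non-conjugate images. -/
theorem exists_nonconj {G : Type} [Group G] (hfg : Group.FG G)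
    (ρ : (ℕ → Bool) → G →* Equiv.Perm ℕ) (hρ : ∀ A, Function.Injective (ρ A)) (m : ℕ)
    (hinj : Function.Injective fun A => stab (ρ A) m) :
    ∃ a : ℝ → ℕ → Bool, ∀ s t (σ : Equiv.Perm ℕ),
      MulAut.conj σ • (ρ (a s)).range = (ρ (a t)).range → s = t := by
  have := countable_end hfg
  let f : (ℕ → Bool) → Set (Subgroup (Equiv.Perm ℕ)) := fun A =>
    {Γ | ∃ σ : Equiv.Perm ℕ, MulAut.conj σ • (ρ A).range = Γ}
  obtain ⟨a, ha⟩ := exists_real_family f (fun q => by
    rcases (f ⁻¹' {q}).eq_empty_or_nonempty with h | ⟨B, hB⟩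
    · rw [h]; exact Set.countable_empty
    have key : ∀ A ∈ f ⁻¹' {q}, ∃ z : (G →* G) × ℕ,
        stab (ρ A) m = (stab (ρ B) z.2).comap z.1 := by
      intro A hA
      have h1 : (ρ B).range ∈ f A := by
        rw [show f A = f B from Eq.trans hA hB.symm]
        exact ⟨1, by simp⟩
      obtain ⟨σ, hσ⟩ := h1
      have h2 : ∀ g, ((MulAut.conj σ).toMonoidHom.comp (ρ A)) g ∈ (ρ B).range := fun g => by
        rw [← hσ]
        exact Subgroup.smul_mem_pointwise_smul _ _ _ ⟨g, rfl⟩
      let α : G →* G := (MonoidHom.ofInjective (hρ B)).symm.toMonoidHom.comp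
        (((MulAut.conj σ).toMonoidHom.comp (ρ A)).codRestrict _ h2)
      have h3 : ∀ g, ρ B (α g) = σ * ρ A g * σ⁻¹ := fun g =>
        MonoidHom.apply_ofInjective_symm (hρ B) _
      refine ⟨(α, σ m), ?_⟩
      ext g
      rw [Subgroup.mem_comap, mem_stab, mem_stab, h3]
      simp
    choose! z hz using key
    refine Set.MapsTo.countable_of_injOn (f := z) (Set.mapsTo_univ _ _) ?_ Set.countable_univ
    intro A hA A' hA' h
    exact hinj (show stab (ρ A) m = stab (ρ A') m by rw [hz A hA, hz A' hA', h]))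
  refine ⟨a, fun s t σ h => ha s t ?_⟩
  ext Γ
  constructor
  · rintro ⟨τ, rfl⟩
    exact ⟨τ * σ⁻¹, by rw [← h, smul_smul, ← map_mul]; simp⟩
  · rintro ⟨τ, rfl⟩
    exact ⟨τ * σ, by rw [← h, smul_smul, ← map_mul]⟩

end Vale.Agent.N196T
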