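import Mathlib

/-!
# P196: definitions for `A0HighlyTransitive`
-/

namespace Vale.Agent.N196T

open scoped Pointwise

/-- `G ≅ F(S) / ⟨⟨R⟩⟩` with `S` a finite set and `R` a finite set of words. -/
def FinPresented (G : Type) [Group G] : Prop :=
  ∃ (S : Type) (_ : Finite S) (R : Set (FreeGroup S)), R.Finite ∧
    Nonempty (G ≃* FreeGroup S ⧸ Subgroup.normalClosure R)

/-- Amenability as in the problem: for every finite `K` and `ε > 0` there is a nonempty finite `D`
with `|gD △ D| < ε |D|` for all `g ∈ K`. -/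
def Foelner (G : Type) [Group G] : Prop :=
  ∀ K : Set G, K.Finite → ∀ ε : ℝ, 0 < ε → ∃ D : Set G, D.Finite ∧ D.Nonempty ∧
    ∀ g ∈ K, ((symmDiff (g • D) D).ncard : ℝ) < ε * D.ncard

/-- Uniform amenability: the size of the set `D` can be bounded in terms of `|K|` and `ε` only. -/
def UniformlyAmenable (G : Type) [Group G] : Prop :=
  ∀ (k : ℕ) (ε : ℝ), 0 < ε → ∃ N : ℕ, ∀ K : Set G, K.Finite → K.ncard ≤ k →
    ∃ D : Set G, D.Finite ∧ D.Nonempty ∧ D.ncard ≤ N ∧
      ∀ g ∈ K, ((symmDiff (g • D) D).ncard : ℝ) < ε * D.ncard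

/-- A group of permutations of `ℕ` is highly transitive (dense in `Sym(ℕ)`) if it is
`k`-transitive for every `k`. -/
def HighlyTransitive (Γ : Subgroup (Equiv.Perm ℕ)) : Prop :=
  ∀ (k : ℕ) (x y : Fin k → ℕ), Function.Injective x → Function.Injective y →
    ∃ σ ∈ Γ, ∀ i, σ (x i) = y i

/-- `G` has no mixed identities, even for finitely many words at once: finitely many nontrivial
elements of the free product `G ∗ F(X)` stay nontrivial after some substitution of elements of `G`
for the variables `X`. -/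
def MixedIdentityFree (G : Type) [Group G] : Prop :=
  ∀ (X : Type) (W : Finset (Monoid.Coprod G (FreeGroup X))), (∀ w ∈ W, w ≠ 1) →
    ∃ φ : X → G, ∀ w ∈ W, Monoid.Coprod.lift (MonoidHom.id G) (FreeGroup.lift φ) w ≠ 1

/-- Infinite girth with a fixed number `k` of generators: for every `n` some generating `k`-tuple
of `G` satisfies no nontrivial relation of length at most `n`. -/
def InfiniteGirth (G : Type) [Group G] : Prop :=
  ∃ k : ℕ, ∀ n : ℕ, ∃ π : FreeGroup (Fin k) →* G, Function.Surjective π ∧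
    ∀ w : FreeGroup (Fin k), w ≠ 1 → w.norm ≤ n → π w ≠ 1

end Vale.Agent.N196T
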