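import Vale.Agent.N196T.Mif

/-!
# Infinite girth
-/

namespace Vale.Agent.N196T

open Monoid

section

variable {G : Type} [Group G]

/-- The variable. -/
def xx : Coprod G (FreeGroup Unit) := Coprod.inr (FreeGroup.of ())

/-- The list is empty or starts with a nontrivial constant. -/
def Hd (l : List (G × (Unit × Bool))) : Prop := ∀ p ∈ l.head?, p.1 ≠ 1

theorem chain_rep (y : Unit × Bool) (l : List (G × (Unit × Bool))) (hl : l.IsChain Rel)
    (hd : Hd l) (j : ℕ) (g : G) : ((g, y) :: (List.replicate j ((1 : G), y) ++ l)).IsChain Rel := by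
  induction j generalizing g with
  | zero =>
    cases l with
    | nil => exact List.isChain_singleton _
    | cons p l => exact List.isChain_cons_cons.2 ⟨fun h => absurd h (hd p rfl), hl⟩
  | succ j ih =>
    rw [List.replicate_succ, List.cons_append]
    refine List.isChain_cons_cons.2 ⟨fun _ h => ?_, ih 1⟩
    obtain ⟨a, b⟩ := y
    cases b <;> simp at h

theorem ev_rep (y : Unit × Bool) (l : List (G × (Unit × Bool))) (j : ℕ) :
    ev (List.replicate j ((1 : G), y) ++ l) = Coprod.inr (lt y) ^ j * ev l := by
  induction j with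
  | zero => simp
  | succ j ih =>
    rw [List.replicate_succ, List.cons_append, ev_cons, ih, pow_succ']
    simp [mul_assoc]

/-- Prepending `g x^m`, `m ≠ 0`. -/
theorem prepend (l : List (G × (Unit × Bool))) (hl : l.IsChain Rel) (hd : Hd l) (g : G) (m : ℤ)
    (hm : m ≠ 0) : ∃ (y : Unit × Bool) (l' : List (G × (Unit × Bool))),
      ((g, y) :: l').IsChain Rel ∧ ev ((g, y) :: l') = Coprod.inl g * xx ^ m * ev l := by
  obtain ⟨j, hj | hj⟩ : ∃ j : ℕ, m = (j + 1 : ℕ) ∨ m = -((j + 1 : ℕ) : ℤ) := by
    refine ⟨m.natAbs - 1, ?_⟩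
    omega
  · refine ⟨((), true), _, chain_rep _ l hl hd j g, ?_⟩
    rw [ev_cons, ev_rep, hj, zpow_natCast, pow_succ']
    simp [lt, xx, mul_assoc]
  · refine ⟨((), false), _, chain_rep _ l hl hd j g, ?_⟩
    rw [ev_cons, ev_rep, hj, zpow_neg, zpow_natCast, ← inv_pow, pow_succ']
    simp [lt, xx, mul_assoc]

/-- The sign of a letter. -/
def sg (b : Bool) : ℤ := cond b 1 (-1)

variable {d : ℕ}

/-- The exponent attached to a letter. -/
def ex (n : ℕ) (r : Option (Fin d × Bool)) : ℤ :=
  r.elim 0 fun c => sg c.2 * ((((c.1 : ℕ) : ℤ) + 1) * (n + 1))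

/-- The generators `x` and `x^A s x^A`. -/
def gen (n : ℕ) (s : Fin d → G) (o : Option (Fin d)) : Coprod G (FreeGroup Unit) :=
  o.elim xx fun i => xx ^ ex n (some (i, true)) * Coprod.inl (s i) * xx ^ ex n (some (i, true))

theorem lift_mk_cons (n : ℕ) (s : Fin d → G) (c : Option (Fin d) × Bool)
    (w : List (Option (Fin d) × Bool)) :
    FreeGroup.lift (gen n s) (FreeGroup.mk (c :: w)) =
      gen n s c.1 ^ sg c.2 * FreeGroup.lift (gen n s) (FreeGroup.mk w) := by
  obtain ⟨o, b⟩ := c
  cases b <;> simp [sg]

theorem gen_some (n : ℕ) (s : Fin d → G) (i : Fin d) (b : Bool) :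
    gen n s (some i) ^ sg b =
      xx ^ ex n (some (i, b)) * Coprod.inl (s i ^ sg b) * xx ^ ex n (some (i, b)) := by
  cases b
  · simp [gen, sg, ex, mul_assoc, zpow_neg]
  · simp [gen, sg]

theorem shape (n : ℕ) (s : Fin d → G) (hs : ∀ i, s i ≠ 1) (w : List (Option (Fin d) × Bool))
    (hw : FreeGroup.IsReduced w) (hn : w.length ≤ n) :
    ∃ (l : List (G × (Unit × Bool))) (j : ℤ) (r : Option (Fin d × Bool)),
      l.IsChain Rel ∧ Hd l ∧ (r ≠ none → l ≠ []) ∧ |j| ≤ w.length ∧
      (j = 0 → w.head? = r.map fun c => (some c.1, c.2)) ∧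
      (∀ b, w.head? = some (none, b) → 0 < sg b * j) ∧
      ((∀ b, w.head? ≠ some (none, b)) → j = 0) ∧
      FreeGroup.lift (gen n s) (FreeGroup.mk w) = xx ^ (j + ex n r) * ev l := by
  induction w with
  | nil =>
    refine ⟨[], 0, none, List.isChain_nil, fun p h => by simp at h, by simp, by simp, by simp,
      by simp, by simp, ?_⟩
    simp [ev, ex]
  | cons c w ih =>
    rw [List.length_cons] at hn
    obtain ⟨l, j, r, h1, h2, h3, h4, h5, h6, h7, h8⟩ := ih (List.IsChain.tail hw) (by omega)
    have hred : ∀ c' ∈ w.head?, c.1 = c'.1 → c.2 = c'.2 := by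
      intro c' hc'
      cases w with
      | nil => simp at hc'
      | cons c'' w =>
        simp only [List.head?_cons, Option.mem_def, Option.some.injEq] at hc'
        subst hc'
        exact (List.isChain_cons_cons.1 hw).1
    obtain ⟨o, b⟩ := c
    have hsg : sg b = 1 ∨ sg b = -1 := by cases b <;> simp [sg]
    cases o with
    | none =>
      have hj : 0 ≤ sg b * j := by
        by_cases h : ∃ b', w.head? = some (none, b')
        · obtain ⟨b', hb'⟩ := h
          have : b = b' := hred _ hb' rfl
          subst this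
          exact (h6 b hb').le
        · push Not at h
          rw [h7 h, mul_zero]
      have hpos : 0 < sg b * (j + sg b) := by
        rcases hsg with h | h <;> rw [h] at hj ⊢ <;> linarith
      refine ⟨l, j + sg b, r, h1, h2, h3, ?_, ?_, ?_, ?_, ?_⟩
      · rw [abs_le] at h4 ⊢
        rw [List.length_cons]
        push_cast
        rcases hsg with h | h <;> rw [h] <;> constructor <;> linarith [h4.1, h4.2]
      · intro h
        rw [h] at hpos
        simp at hpos
      · intro b' hb'
        simp only [List.head?_cons, Option.some.injEq, Prod.mk.injEq, true_and] at hb'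
        rw [← hb']
        exact hpos
      · intro h
        exact absurd rfl (h b)
      · rw [lift_mk_cons, h8, ← mul_assoc]
        change xx ^ sg b * _ * _ = _
        rw [← zpow_add]
        congr 2
        ring
    | some i =>
      have hm : ex n (some (i, b)) + (j + ex n r) ≠ 0 := by
        intro h0
        rw [abs_le] at h4
        cases r with
        | none =>
          simp only [ex, Option.elim] at h0
          have : (0 : ℤ) ≤ (i : ℕ) * (n + 1) := by positivity
          have h9 : ((w.length : ℕ) : ℤ) + 1 ≤ n := by exact_mod_cast hn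
          rcases hsg with h | h <;> rw [h] at h0 <;> nlinarith [h4.1, h4.2]
        | some c' =>
          obtain ⟨i', b'⟩ := c'
          simp only [ex, Option.elim] at h0
          have h9 : ((w.length : ℕ) : ℤ) + 1 ≤ n := by exact_mod_cast hn
          set t : ℤ := sg b * ((i : ℕ) + 1) + sg b' * ((i' : ℕ) + 1) with ht
          have h10 : j = -t * (n + 1) := by rw [ht]; linarith
          have ht0 : t = 0 := by
            by_contra hne
            rcases lt_or_gt_of_ne hne with h | h <;> nlinarith [h4.1, h4.2]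
          have hj0 : j = 0 := by rw [h10, ht0]; simp
          have h11 := h5 hj0
          have hii : i = i' ∧ b ≠ b' := by
            cases b <;> cases b' <;> simp only [sg, cond_true, cond_false] at ht <;>
              first
              | (exfalso; omega)
              | exact ⟨Fin.ext (by omega), by simp⟩
          exact hii.2 (hred _ h11 (by simp [hii.1]))
      have hg : s i ^ sg b ≠ 1 := by
        rcases hsg with h | h <;> rw [h] <;> simpa using hs i
      obtain ⟨y, l', h9, h10⟩ := prepend l h1 h2 (s i ^ sg b) _ hm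
      refine ⟨_, 0, some (i, b), h9, ?_, by simp, by rw [abs_zero]; positivity, by simp, by simp,
        by simp, ?_⟩
      · intro p hp
        simp only [List.head?_cons, Option.mem_def, Option.some.injEq] at hp
        rw [← hp]
        exact hg
      · rw [lift_mk_cons, h8, h10, gen_some, zero_add, zpow_add (xx) (ex n (some (i, b)))]
        simp only [mul_assoc]

variable {X : Type} [MulAction G X]

theorem lift_gen_ne_one [Infinite X] (hsupp : ∀ g : G, g ≠ 1 → {x : X | g • x ≠ x}.Infinite)
    (ht : ∀ (k : ℕ) (x y : Fin k → X), Function.Injective x → Function.Injective y →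
      ∃ g : G, ∀ i, g • x i = y i)
    (n : ℕ) (s : Fin d → G) (hs : ∀ i, s i ≠ 1) (w : FreeGroup (Option (Fin d))) (hw : w ≠ 1)
    (hn : w.norm ≤ n) : FreeGroup.lift (gen n s) w ≠ 1 := by
  obtain ⟨l, j, r, h1, h2, h3, h4, h5, -, -, h8⟩ :=
    shape n s hs w.toWord FreeGroup.isReduced_toWord hn
  rw [FreeGroup.mk_toWord] at h8
  rw [h8]
  by_cases hm : j + ex n r = 0
  · rw [hm, zpow_zero, one_mul]
    refine ev_ne_one hsupp ht l h1 (h3 ?_)
    rintro rfl
    simp only [ex, Option.elim, add_zero] at hm
    have := h5 hm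
    simp only [Option.map_none, List.head?_eq_none_iff] at this
    exact hw (FreeGroup.toWord_eq_nil_iff.1 this)
  · obtain ⟨y, l', h9, h10⟩ := prepend l h1 h2 1 _ hm
    rw [map_one, one_mul] at h10
    rw [← h10]
    exact ev_ne_one hsupp ht _ h9 (by simp)

theorem ball_finite {β : Type} [Finite β] [DecidableEq β] (n : ℕ) :
    {w : FreeGroup β | w.norm ≤ n}.Finite := by
  refine ((List.finite_length_le (β × Bool) n).image FreeGroup.mk).subset ?_
  intro w hw
  exact ⟨w.toWord, hw, FreeGroup.mk_toWord⟩

theorem norm_map_le {β γ : Type} [DecidableEq β] [DecidableEq γ] (f : β → γ) (w : FreeGroup β) :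
    (FreeGroup.map f w).norm ≤ w.norm := by
  conv_lhs => rw [← FreeGroup.mk_toWord (x := w), FreeGroup.map.mk]
  refine FreeGroup.norm_mk_le.trans ?_
  simp [FreeGroup.norm]

theorem girth [Infinite X] (hsupp : ∀ g : G, g ≠ 1 → {x : X | g • x ≠ x}.Infinite)
    (ht : ∀ (k : ℕ) (x y : Fin k → X), Function.Injective x → Function.Injective y →
      ∃ g : G, ∀ i, g • x i = y i) (hfg : Group.FG G) : InfiniteGirth G := by
  classical
  obtain ⟨S, hS⟩ := hfg.out
  set S' := S.erase 1 with hS'
  have hgen : Subgroup.closure (S' : Set G) = ⊤ := by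
    rw [eq_top_iff, ← hS, Subgroup.closure_le]
    intro g hg
    by_cases h : g = 1
    · rw [h]; exact Subgroup.one_mem _
    · exact Subgroup.subset_closure (by simpa [hS', h] using hg)
  set d := S'.card
  set s : Fin d → G := fun i => (S'.equivFin.symm i : G) with hs
  have hs1 : ∀ i, s i ≠ 1 := fun i => Finset.ne_of_mem_erase (S'.equivFin.symm i).2
  refine ⟨d + 1, fun n => ?_⟩
  set W : Finset (FreeGroup (Option (Fin d))) := (ball_finite n).toFinset.erase 1 with hW
  obtain ⟨φ, hφ⟩ := mif hsupp ht Unit (W.image (FreeGroup.lift (gen n s))) (by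
    intro w hw
    obtain ⟨v, hv, rfl⟩ := Finset.mem_image.1 hw
    rw [hW, Finset.mem_erase, Set.Finite.mem_toFinset] at hv
    exact lift_gen_ne_one hsupp ht n s hs1 v hv.1 hv.2)
  set ψ := Coprod.lift (MonoidHom.id G) (FreeGroup.lift φ) with hψ
  set π0 := ψ.comp (FreeGroup.lift (gen n s)) with hπ0
  set e := finSuccEquiv d
  refine ⟨π0.comp (FreeGroup.map e), ?_, ?_⟩
  · have h1 : Function.Surjective π0 := by
      rw [← MonoidHom.range_eq_top, eq_top_iff, ← hgen, Subgroup.closure_le]
      intro g hg
      obtain ⟨i, rfl⟩ : ∃ i, s i = g := ⟨S'.equivFin ⟨g, hg⟩, by simp [hs]⟩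
      have hx : ψ xx ∈ π0.range := ⟨FreeGroup.of none, by simp [hπ0, gen]⟩
      have hy : ψ (gen n s (some i)) ∈ π0.range := ⟨FreeGroup.of (some i), by simp [hπ0]⟩
      have h2 : s i = (ψ xx ^ ex n (some (i, true)))⁻¹ * ψ (gen n s (some i)) *
          (ψ xx ^ ex n (some (i, true)))⁻¹ := by
        simp only [gen, Option.elim, map_mul, map_zpow]
        rw [show ψ (Coprod.inl (s i)) = s i from rfl]
        group
      rw [SetLike.mem_coe, h2]
      exact mul_mem (mul_mem (inv_mem (zpow_mem hx _)) hy) (inv_mem (zpow_mem hx _))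
    exact h1.comp (FreeGroup.map_surjective e.surjective)
  · intro w hw hn
    refine hφ _ (Finset.mem_image_of_mem _ ?_)
    rw [hW, Finset.mem_erase, Set.Finite.mem_toFinset]
    refine ⟨fun h => hw (FreeGroup.map_injective e.injective (h.trans (map_one _).symm)), ?_⟩
    exact (norm_map_le e w).trans hn

end

end Vale.Agent.N196T
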