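import Vale.Agent.P196.H370.Bounded
import Vale.Agent.N196T.Defs

/-!
# The limit actions of `grp ι LS` along ultrafilters on `ℤ²`
-/

noncomputable section

namespace Vale.Agent.N196T

open Equiv Filter Vale.Agent.P196.S0

variable {ι : Type} [Fintype ι] [DecidableEq ι] {LS : Set (Set Z2)}

/-- Along `U`, the permutation `g` moves the site `p` to the site `q`. -/
def Lim (U : Ultrafilter Z2) (g : Perm (Z2 × ι)) (p q : Z2 × ι) : Prop :=
  ∀ᶠ x in (U : Filter Z2), g (x + p.1, p.2) = (x + q.1, q.2)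

omit [Fintype ι] [DecidableEq ι] in
theorem lim_unique {U : Ultrafilter Z2} {g : Perm (Z2 × ι)} {p q q' : Z2 × ι} (h : Lim U g p q)
    (h' : Lim U g p q') : q = q' := by
  obtain ⟨x, h1, h2⟩ := (h.and h').exists
  rw [h1, Prod.mk.injEq, add_right_inj] at h2
  exact Prod.ext h2.1 h2.2

theorem lim_exists (U : Ultrafilter Z2) (g : grp ι LS) (p : Z2 × ι) : ∃ q, Lim U g.1 p q := by
  obtain ⟨r, hr⟩ := Vale.Agent.P196.H370.bounded g.1 g.2
  set F : Z2 → Z2 × ι := fun x => ((g.1 (x + p.1, p.2)).1 - x, (g.1 (x + p.1, p.2)).2) with hF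
  have hfin : ((Set.Icc (p.1.1 - r) (p.1.1 + r) ×ˢ Set.Icc (p.1.2 - r) (p.1.2 + r)) ×ˢ
      (Set.univ : Set ι)).Finite :=
    ((Set.finite_Icc _ _).prod (Set.finite_Icc _ _)).prod Set.finite_univ
  obtain ⟨q, -, hq⟩ := Ultrafilter.eq_pure_of_finite_mem (f := U.map F) hfin (by
    rw [Ultrafilter.mem_map]
    refine univ_mem' fun x => ?_
    obtain ⟨h1, h2⟩ := hr (x + p.1, p.2)
    rw [abs_le] at h1 h2
    simp only [Prod.fst_add, Prod.snd_add] at h1 h2
    simp only [hF, Set.mem_preimage, Set.mem_prod, Set.mem_Icc, Set.mem_univ, and_true,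
      Prod.fst_sub, Prod.snd_sub]
    refine ⟨⟨?_, ?_⟩, ?_, ?_⟩ <;> linarith [h1.1, h1.2, h2.1, h2.2])
  refine ⟨q, ?_⟩
  have h1 : ({q} : Set (Z2 × ι)) ∈ U.map F := by rw [hq]; simp
  rw [Ultrafilter.mem_map] at h1
  refine mem_of_superset h1 fun x hx => ?_
  simp only [Set.mem_preimage, Set.mem_singleton_iff] at hx
  simp only [Set.mem_ofPred_eq, ← hx, hF, add_sub_cancel]

/-- The limit action. -/
def rho (U : Ultrafilter Z2) : grp ι LS →* Perm (Z2 × ι) :=
  MonoidHom.toHomPerm
    { toFun := fun g p => (lim_exists U g p).choose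
      map_one' := by
        funext p
        exact lim_unique (lim_exists U 1 p).choose_spec (Eventually.of_forall fun x => rfl)
      map_mul' := by
        intro g h
        funext p
        refine lim_unique (lim_exists U (g * h) p).choose_spec ?_
        have h1 := (lim_exists U h p).choose_spec
        have h2 := (lim_exists U g (lim_exists U h p).choose).choose_spec
        refine (h1.and h2).mono fun x hx => ?_
        change g.1 (h.1 _) = _
        rw [hx.1, hx.2]
        rfl }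

theorem rho_lim (U : Ultrafilter Z2) (g : grp ι LS) (p : Z2 × ι) : Lim U g.1 p (rho U g p) :=
  (lim_exists U g p).choose_spec

theorem rho_eq {U : Ultrafilter Z2} {g : grp ι LS} {p q : Z2 × ι} (h : Lim U g.1 p q) :
    rho U g p = q := lim_unique (rho_lim U g p) h

theorem rho_pure (g : grp ι LS) (p : Z2 × ι) : rho (pure 0) g p = g.1 p :=
  rho_eq (by simp [Lim])

/-- Small local sets are large for every ultrafilter. -/
theorem exists_small_mem (hLS : LocalSets LS) (U : Ultrafilter Z2) (V : Finset Z2) :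
    ∃ E ∈ LS, E ∈ U ∧ Small E V := by
  obtain ⟨E, hE, h0, hs⟩ := exists_small hLS V 0
  obtain ⟨W, hW⟩ := hLS.recur E hE ⟨0, h0⟩
  have h1 : (⋃ v ∈ (W : Set Z2), {u | u - (-v) ∈ E}) ∈ U := by
    refine univ_mem' fun u => ?_
    obtain ⟨v, hv, h⟩ := hW u
    exact Set.mem_biUnion (show v ∈ (W : Set Z2) from hv) (by simpa using h)
  obtain ⟨v, -, hv⟩ := (Ultrafilter.finite_biUnion_mem_iff W.finite_toSet).1 h1
  refine ⟨_, hLS.trans E hE (-v), hv, fun a ha a' ha' x hx x' hx' h => ?_⟩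
  refine hs a ha a' ha' _ hx _ hx' ?_
  linear_combination h

/-- The limit actions are highly transitive. -/
theorem rho_trans (hι : 5 ≤ Fintype.card ι) (hLS : LocalSets LS) (U : Ultrafilter Z2) (k : ℕ)
    (x y : Fin k → Z2 × ι) (hx : Function.Injective x) (hy : Function.Injective y) :
    ∃ g : grp ι LS, ∀ i, rho U g (x i) = y i := by
  classical
  set V0 : Finset Z2 := Finset.univ.image (fun i => (x i).1) ∪
    Finset.univ.image (fun i => (y i).1) with hV0
  obtain ⟨V, hV, hc⟩ := Infinite.exists_superset_card_eq V0 (V0.card + k + 2) (by omega)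
  have hxV : ∀ i, (x i).1 ∈ V := fun i => hV (by simp [hV0])
  have hyV : ∀ i, (y i).1 ∈ V := fun i => hV (by simp [hV0])
  obtain ⟨E, hE, hEU, hs⟩ := exists_small_mem hLS U V
  have hcard : k + 2 ≤ Nat.card (V × ι) := by
    rw [Nat.card_eq_fintype_card, Fintype.card_prod, Fintype.card_coe, hc]
    nlinarith
  have h1 := alternatingGroup.isMultiplyPretransitive (V × ι)
  have h2 : MulAction.IsMultiplyPretransitive (alternatingGroup (V × ι)) (V × ι) k :=
    MulAction.isMultiplyPretransitive_of_le (n := Nat.card (V × ι) - 2) (by omega) (by omega)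
  obtain ⟨σ, hσ⟩ := MulAction.isMultiplyPretransitive_iff.1 h2
    ⟨fun i => (⟨(x i).1, hxV i⟩, (x i).2), fun i j h => hx (by
      simp only [Prod.mk.injEq, Subtype.mk.injEq] at h
      exact Prod.ext h.1 h.2)⟩
    ⟨fun i => (⟨(y i).1, hyV i⟩, (y i).2), fun i j h => hy (by
      simp only [Prod.mk.injEq, Subtype.mk.injEq] at h
      exact Prod.ext h.1 h.2)⟩
  refine ⟨⟨blow E V hs σ.1, blow_mem hι hE hs _ σ.2⟩, fun i => rho_eq ?_⟩
  refine mem_of_superset hEU fun u hu => ?_
  have h3 := blow_apply hs σ.1 hu (⟨(x i).1, hxV i⟩, (x i).2)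
  have h4 : σ.1 (⟨(x i).1, hxV i⟩, (x i).2) = (⟨(y i).1, hyV i⟩, (y i).2) :=
    DFunLike.congr_fun hσ i
  rw [h4] at h3
  exact h3

theorem infinite_of_mem (hLS : LocalSets LS) {E : Set Z2} (hE : E ∈ LS) (hne : E.Nonempty) :
    E.Infinite := by
  intro hfin
  obtain ⟨W, hW⟩ := hLS.recur E hE hne
  refine Set.infinite_univ (α := Z2) (((hfin.prod W.finite_toSet).image
    fun p => p.1 - p.2).subset fun u _ => ?_)
  obtain ⟨v, hv, h⟩ := hW u
  exact ⟨(u + v, v), ⟨h, hv⟩, by simp⟩

/-- Nontrivial elements move infinitely many sites. -/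
theorem supp_infinite (hLS : LocalSets LS) (g : grp ι LS) (hg : g ≠ 1) :
    {p : Z2 × ι | g • p ≠ p}.Infinite := by
  obtain ⟨⟨u, f⟩, hp⟩ : ∃ p, g.1 p ≠ p := by
    by_contra hcon
    push Not at hcon
    exact hg (Subtype.ext (Equiv.ext hcon))
  obtain ⟨E, hE, hu, h⟩ := grp_local hLS g.1 g.2 u f
  refine ((infinite_of_mem hLS hE ⟨u, hu⟩).image
    (f := fun x => (x, f)) (fun _ _ _ _ h => by simpa using h)).mono ?_
  rintro _ ⟨x, hx, rfl⟩ h1
  apply hp
  have h2 : g.1 (x, f) = (x, f) := h1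
  rw [h x hx, Prod.mk.injEq, add_eq_left, sub_eq_zero] at h2
  exact Prod.ext h2.1 h2.2

/-- Local sets split. -/
theorem exists_split (hLS : LocalSets LS) (E : {E : Set Z2 // E ∈ LS ∧ E.Nonempty}) :
    ∃ c : Bool → {E : Set Z2 // E ∈ LS ∧ E.Nonempty}, (∀ b, (c b).1 ⊆ E.1) ∧
      Disjoint (c true).1 (c false).1 := by
  obtain ⟨u, hu, u', hu', hne⟩ := (infinite_of_mem hLS E.2.1 E.2.2).nontrivial
  obtain ⟨F, hF, huF, hfree⟩ := hLS.free (u - u') (sub_ne_zero.2 hne) u
  have h1 : u' ∉ F := by simpa using hfree u huF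
  refine ⟨fun b => cond b ⟨E.1 ∩ F, hLS.inter _ E.2.1 _ hF, u, hu, huF⟩
    ⟨E.1 ∩ Fᶜ, hLS.inter _ E.2.1 _ (hLS.compl _ hF), u', hu', h1⟩, fun b => ?_, ?_⟩
  · cases b <;> exact Set.inter_subset_left
  · exact Set.disjoint_left.2 fun x hx hx' => hx'.2 hx.2

/-- Continuum many ultrafilters that are separated by local sets. -/
theorem exists_family (hLS : LocalSets LS) : ∃ U : (ℕ → Bool) → Ultrafilter Z2,
    ∀ A B, A ≠ B → ∃ E ∈ LS, E ∈ U A ∧ Eᶜ ∈ U B := by
  choose c hc1 hc2 using exists_split hLS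
  let s : (ℕ → Bool) → ℕ → {E : Set Z2 // E ∈ LS ∧ E.Nonempty} := fun A n =>
    Nat.rec ⟨Set.univ, hLS.univ, Set.univ_nonempty⟩ (fun n E => c E (A n)) n
  have hs : ∀ A n, s A (n + 1) = c (s A n) (A n) := fun _ _ => rfl
  have hanti : ∀ A, Antitone fun n => (s A n).1 := fun A =>
    antitone_nat_of_succ_le fun n => hc1 _ _
  have hne : ∀ A, (⨅ n, Filter.principal (s A n).1).NeBot := fun A =>
    iInf_neBot_of_directed' (Antitone.directed_ge fun m n h => principal_mono.2 (hanti A h))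
      fun n => principal_neBot_iff.2 (s A n).2.2
  refine ⟨fun A => Ultrafilter.of (⨅ n, Filter.principal (s A n).1), fun A B hAB => ?_⟩
  have hmem : ∀ A n, (s A n).1 ∈ Ultrafilter.of (⨅ n, Filter.principal (s A n).1) := fun A n =>
    Ultrafilter.of_le _ (mem_iInf_of_mem n (mem_principal_self _))
  classical
  have hex : ∃ n, A n ≠ B n := Function.ne_iff.1 hAB
  have heq : ∀ n, n ≤ Nat.find hex → s A n = s B n := by
    intro n
    induction n with
    | zero => intro _; rfl
    | succ n ih =>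
      intro hn
      have h1 : A n = B n := by simpa using Nat.find_min hex (show n < Nat.find hex by omega)
      rw [hs, hs, ih (by omega), h1]
  refine ⟨_, (s A (Nat.find hex + 1)).2.1, hmem A (Nat.find hex + 1),
    mem_of_superset (hmem B (Nat.find hex + 1)) ?_⟩
  rw [hs, hs, heq _ le_rfl]
  have h2 := Nat.find_spec hex
  have h3 := hc2 (s B (Nat.find hex))
  revert h2
  cases A (Nat.find hex) <;> cases B (Nat.find hex) <;> intro h2
  · exact absurd rfl h2
  · exact h3.subset_compl_right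
  · exact h3.subset_compl_left
  · exact absurd rfl h2

/-- The stabilisers of a site in the limit actions are distinct. -/
theorem exists_sep (hι : 5 ≤ Fintype.card ι) {U U' : Ultrafilter Z2} {E : Set Z2} (hE : E ∈ LS)
    (h : E ∈ U) (h' : Eᶜ ∈ U') (f : ι) :
    ∃ g : grp ι LS, rho U g (0, f) ≠ (0, f) ∧ rho U' g (0, f) = (0, f) := by
  obtain ⟨a, ha⟩ := exists_floor hι {f} (by simp)
  obtain ⟨b, hb⟩ := exists_floor hι {f, a} (Finset.card_le_two.trans (by norm_num))
  simp only [Finset.mem_insert, Finset.mem_singleton, not_or] at ha hb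
  refine ⟨⟨eP E (cyc f a b), eP_mem hE (cyc_mem_alternating (Ne.symm ha) (Ne.symm hb.2))⟩,
    ?_, rho_eq ?_⟩
  · rw [rho_eq (q := (0, a))]
    · simpa using ha
    · refine mem_of_superset h fun x hx => ?_
      simp only [Set.mem_ofPred_eq, add_zero]
      rw [eP_apply_mem hx, cyc_apply_a (Ne.symm ha) (Ne.symm hb.1)]
  · refine mem_of_superset h' fun x hx => ?_
    simp only [Set.mem_ofPred_eq, add_zero]
    rw [eP_apply_notMem hx]

end Vale.Agent.N196T
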