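import Vale.Agent.N196T.Girth

/-!
# Groups without mixed identities are not uniformly amenable
-/

namespace Vale.Agent.N196T

open Monoid
open scoped Pointwise

variable {G : Type} [Group G]

theorem mk_cons (y : Bool × Bool) (L : List (Bool × Bool)) :
    FreeGroup.mk (y :: L) = lt y * FreeGroup.mk L := by
  obtain ⟨a, b⟩ := y
  cases b
  · rw [show ((a, false) :: L) = [(a, false)] ++ L from rfl, ← FreeGroup.mul_mk]
    rfl
  · rw [show ((a, true) :: L) = [(a, true)] ++ L from rfl, ← FreeGroup.mul_mk]
    rfl

/-- A small set has a leaf. -/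
theorem exists_leaf (π : FreeGroup Bool →* G) (N : ℕ)
    (hπ : ∀ w : FreeGroup Bool, w ≠ 1 → w.norm ≤ N → π w ≠ 1) (D : Finset G) (hD : D.card ≤ N)
    (hne : D.Nonempty) :
    ∃ v ∈ D, ∀ y y' : Bool × Bool, π (lt y) * v ∈ D → π (lt y') * v ∈ D → y = y' := by
  by_contra hcon
  push Not at hcon
  have h1 : ∀ v ∈ D, ∀ z : Bool × Bool, ∃ y, y ≠ z ∧ π (lt y) * v ∈ D := by
    intro v hv z
    obtain ⟨y, y', h2, h3, h4⟩ := hcon v hv
    by_cases h : y = z
    · exact ⟨y', fun h' => h4 (h.trans h'.symm), h3⟩
    · exact ⟨y, h, h2⟩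
  obtain ⟨v0, hv0⟩ := hne
  have h2 : ∀ m : ℕ, ∃ L : List (Bool × Bool), L.length = m ∧ FreeGroup.IsReduced L ∧
      ∀ i, π (FreeGroup.mk (L.drop i)) * v0 ∈ D := by
    intro m
    induction m with
    | zero => exact ⟨[], rfl, FreeGroup.IsReduced.nil, fun i => by
        rw [List.drop_nil, ← FreeGroup.one_eq_mk, map_one, one_mul]; exact hv0⟩
    | succ m ih =>
      obtain ⟨L, h3, h4, h5⟩ := ih
      obtain ⟨y, hy1, hy2⟩ := h1 _ (h5 0) ((L.headD (true, true)).1, !(L.headD (true, true)).2)
      refine ⟨y :: L, by simp [h3], ?_, fun i => ?_⟩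
      · cases L with
        | nil => exact FreeGroup.IsReduced.singleton
        | cons z L =>
          refine List.isChain_cons_cons.2 ⟨fun h => ?_, h4⟩
          by_contra h'
          apply hy1
          obtain ⟨a, b⟩ := y
          obtain ⟨a', b'⟩ := z
          cases b <;> cases b' <;> simp_all
      · cases i with
        | zero =>
          rw [List.drop_zero, mk_cons, map_mul, mul_assoc]
          exact hy2
        | succ i => exact h5 i
  obtain ⟨L, h3, h4, h5⟩ := h2 N
  have key : ∀ i j, i < j → j ≤ N →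
      π (FreeGroup.mk (L.drop i)) * v0 ≠ π (FreeGroup.mk (L.drop j)) * v0 := by
    intro i j hij hj h
    set w := (L.drop i).take (j - i) with hw
    have hlen : w.length = j - i := by
      rw [hw, List.length_take, List.length_drop]; omega
    have hsplit : L.drop i = w ++ L.drop j := by
      have := List.take_append_drop (j - i) (L.drop i)
      rw [List.drop_drop, show i + (j - i) = j by omega] at this
      exact this.symm
    have hred : FreeGroup.IsReduced w := List.IsChain.take (List.IsChain.drop h4 i) (j - i)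
    rw [mul_left_inj, hsplit, ← FreeGroup.mul_mk, map_mul, mul_eq_right] at h
    refine hπ _ (fun h0 => ?_) (FreeGroup.norm_mk_le.trans (by omega)) h
    have h6 := FreeGroup.toWord_eq_nil_iff.2 h0
    rw [FreeGroup.toWord_mk, hred.reduce_eq] at h6
    rw [h6] at hlen
    simp at hlen
    omega
  obtain ⟨i, hi, j, hj, hij, h⟩ := Finset.exists_ne_map_eq_of_card_lt_of_maps_to
    (s := Finset.range (N + 1)) (t := D) (by simpa using Nat.lt_succ_of_le hD)
    (f := fun i => π (FreeGroup.mk (L.drop i)) * v0) (fun i _ => h5 i)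
  rw [Finset.mem_range] at hi hj
  rcases lt_or_gt_of_ne hij with h6 | h6
  · exact key i j h6 (by omega) h
  · exact key j i h6 (by omega) h.symm

open Classical in
/-- The edges inside `D`. -/
noncomputable def edges (π : FreeGroup Bool →* G) (D : Finset G) : Finset (Bool × G) :=
  (Finset.univ ×ˢ D).filter fun e => π (FreeGroup.of e.1) * e.2 ∈ D

theorem card_edges (π : FreeGroup Bool →* G) (N : ℕ)
    (hπ : ∀ w : FreeGroup Bool, w ≠ 1 → w.norm ≤ N → π w ≠ 1) (D : Finset G) (hD : D.card ≤ N) :
    (edges π D).card ≤ D.card := by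
  classical
  induction D using Finset.strongInduction with
  | H D ih =>
    rcases D.eq_empty_or_nonempty with rfl | hne
    · simp [edges]
    obtain ⟨v, hv, hleaf⟩ := exists_leaf π N hπ D hD hne
    have h1 := ih (D.erase v) (Finset.erase_ssubset hv) (Finset.card_erase_le.trans hD)
    set Y : Finset (Bool × Bool) := Finset.univ.filter fun y => π (lt y) * v ∈ D with hY
    have hY1 : Y.card ≤ 1 := Finset.card_le_one.2 fun y hy y' hy' =>
      hleaf y y' (Finset.mem_filter.1 hy).2 (Finset.mem_filter.1 hy').2
    have hsub : edges π D ⊆ edges π (D.erase v) ∪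
        Y.image fun y => (y.1, cond y.2 v ((π (FreeGroup.of y.1))⁻¹ * v)) := by
      rintro ⟨c, d⟩ he
      simp only [edges, Finset.mem_filter, Finset.mem_product, Finset.mem_univ, true_and] at he
      by_cases h2 : d = v
      · subst h2
        exact Finset.mem_union_right _ (Finset.mem_image.2 ⟨(c, true),
          Finset.mem_filter.2 ⟨Finset.mem_univ _, he.2⟩, rfl⟩)
      · by_cases h3 : π (FreeGroup.of c) * d = v
        · refine Finset.mem_union_right _ (Finset.mem_image.2 ⟨(c, false), ?_, ?_⟩)
          · refine Finset.mem_filter.2 ⟨Finset.mem_univ _, ?_⟩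
            simpa [lt, ← h3] using he.1
          · simp [← h3]
        · refine Finset.mem_union_left _ ?_
          simp [edges, h2, h3, he.1, he.2]
    have h4 := (Finset.card_le_card hsub).trans (Finset.card_union_le _ _)
    have h5 := Finset.card_image_le (s := Y)
      (f := fun y => (y.1, cond y.2 v ((π (FreeGroup.of y.1))⁻¹ * v)))
    have h6 := Finset.card_erase_add_one hv
    omega

theorem not_uniform (h : MixedIdentityFree G) : ¬ UniformlyAmenable G := by
  classical
  intro hu
  obtain ⟨N, hN⟩ := hu 2 1 one_pos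
  obtain ⟨φ, hφ⟩ := h Bool (((ball_finite (β := Bool) N).toFinset.erase 1).image Coprod.inr) (by
    intro w hw
    obtain ⟨v, hv, rfl⟩ := Finset.mem_image.1 hw
    exact fun h0 => Finset.ne_of_mem_erase hv (Coprod.inr_injective (h0.trans (map_one _).symm)))
  set π := FreeGroup.lift φ with hπ
  have h1 : ∀ w : FreeGroup Bool, w ≠ 1 → w.norm ≤ N → π w ≠ 1 := fun w hw hn =>
    hφ (Coprod.inr w) (Finset.mem_image_of_mem _ (by simpa [hw] using hn))
  obtain ⟨D, hD, -, hDN, hF⟩ := hN {φ true, φ false} (Set.toFinite _)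
    ((Set.ncard_insert_le _ _).trans (by simp))
  lift D to Finset G using hD
  rw [Set.ncard_coe_finset] at hDN hF
  have h2 := card_edges π N h1 D hDN
  have h3 : ∀ c : Bool, D.card < 2 * (D.filter fun d => φ c * d ∈ D).card := by
    intro c
    have h4 := hF (φ c) (by cases c <;> simp)
    rw [one_mul, ← Finset.coe_smul_finset, ← Finset.coe_symmDiff, Set.ncard_coe_finset,
      Nat.cast_lt, symmDiff_def, Finset.sup_eq_union,
      Finset.card_union_of_disjoint disjoint_sdiff_sdiff] at h4
    have h5 := Finset.card_sdiff_add_card_inter (φ c • D) D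
    have h6 := Finset.card_sdiff_add_card_inter D (φ c • D)
    rw [Finset.inter_comm] at h6
    rw [Finset.card_smul_finset] at h5
    have h7 : (φ c • D ∩ D).card ≤ (D.filter fun d => φ c * d ∈ D).card := by
      rw [← Finset.card_smul_finset (φ c) (D.filter _)]
      refine Finset.card_le_card fun x hx => ?_
      obtain ⟨hx1, hx2⟩ := Finset.mem_inter.1 hx
      obtain ⟨d, hd, rfl⟩ := Finset.mem_smul_finset.1 hx1
      exact Finset.smul_mem_smul_finset (Finset.mem_filter.2 ⟨hd, hx2⟩)
    omega
  have h8 : (edges π D).card = ∑ c : Bool, (D.filter fun d => φ c * d ∈ D).card := by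
    rw [edges, Finset.card_filter, Finset.sum_product]
    refine Finset.sum_congr rfl fun c _ => ?_
    rw [Finset.card_filter]
    simp [hπ]
  rw [Fintype.sum_bool] at h8
  have := h3 true
  have := h3 false
  omega

end Vale.Agent.N196T
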