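import Vale.Agent.P196.H370.Main
import Vale.Agent.N196T.Uniform
import Vale.Agent.N196T.Limit
import Vale.Agent.N196T.Count

/-!
# P196: the group `GG` and its highly transitive actions
-/

noncomputable section

namespace Vale.Agent.N196T

open Equiv Vale.Agent.P196 Vale.Agent.P196.S0 Vale.Agent.P196.H370
open scoped Pointwise

theorem finPresented_gg : FinPresented GG := by
  obtain ⟨n, R, hR, ⟨e⟩⟩ := exists_pres GG gg_fp
  exact ⟨Fin n, inferInstance, R, hR, ⟨e.symm⟩⟩

theorem foelner_of {G : Type} [Group G] (hG : IsAmenable G) : Foelner G := by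
  classical
  intro K hK ε hε
  obtain ⟨D, hD, h⟩ := hG hK.toFinset ε hε
  refine ⟨D, D.finite_toSet, hD, fun g hg => ?_⟩
  have h1 := h g (hK.mem_toFinset.2 hg)
  rw [← Finset.coe_smul_finset, ← Finset.coe_symmDiff, Set.ncard_coe_finset, Set.ncard_coe_finset]
  convert h1
  ext x
  rw [Finset.mem_smul_finset, Finset.mem_image]
  rfl

theorem foelner_gg : Foelner GG := foelner_of gg_amenable

theorem fg_gg : Group.FG GG := by
  obtain ⟨n, π, hπ, -⟩ := gg_fp.out
  exact Group.fg_of_surjective hπ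

theorem trans_gg (k : ℕ) (x y : Fin k → Z2 × Fin 12) (hx : Function.Injective x)
    (hy : Function.Injective y) : ∃ g : GG, ∀ i, g • x i = y i := by
  obtain ⟨g, hg⟩ := rho_trans (by simp) Wang.localSets (pure 0) k x y hx hy
  exact ⟨g, fun i => by rw [← hg i, rho_pure]; rfl⟩

theorem mif_gg : MixedIdentityFree GG := mif (supp_infinite Wang.localSets) trans_gg

theorem girth_gg : InfiniteGirth GG := girth (supp_infinite Wang.localSets) trans_gg fg_gg

theorem injective_of_trans {G : Type} [Group G] [IsSimpleGroup G] {ρ : G →* Perm ℕ}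
    (h : HighlyTransitive ρ.range) : Function.Injective ρ := by
  rw [← MonoidHom.ker_eq_bot_iff]
  refine (IsSimpleGroup.eq_bot_or_eq_top_of_normal ρ.ker inferInstance).resolve_right fun ht => ?_
  obtain ⟨g, hg, -⟩ := two_trans h (a := 0) (b := 1) (c := 1) (d := 0) (by omega) (by omega)
  have h1 : ρ g = 1 := (ht ▸ Subgroup.mem_top g : g ∈ ρ.ker)
  rw [h1] at hg
  simp at hg

theorem family_gg : ∃ (ρ : (ℕ → Bool) → GG →* Perm ℕ) (m : ℕ),
    (∀ A, HighlyTransitive (ρ A).range) ∧ Function.Injective fun A => stab (ρ A) m := by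
  obtain ⟨e⟩ : Nonempty (Z2 × Fin 12 ≃ ℕ) := nonempty_equiv_of_countable
  obtain ⟨U, hU⟩ := exists_family Wang.localSets
  have happ : ∀ A (g : GG) p, (e.permCongrHom.toMonoidHom.comp (rho (U A))) g (e p) =
      e (rho (U A) g p) := fun A g p => by
    change e (rho (U A) g (e.symm (e p))) = _
    rw [e.symm_apply_apply]
  refine ⟨fun A => e.permCongrHom.toMonoidHom.comp (rho (U A)), e (0, 0), ?_, ?_⟩
  · intro A k x y hx hy
    obtain ⟨g, hg⟩ := rho_trans (by simp) Wang.localSets (U A) k (e.symm ∘ x) (e.symm ∘ y)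
      (e.symm.injective.comp hx) (e.symm.injective.comp hy)
    refine ⟨_, ⟨g, rfl⟩, fun i => ?_⟩
    have h1 := happ A g (e.symm (x i))
    rw [e.apply_symm_apply] at h1
    rw [h1]
    exact (congrArg e (hg i)).trans (e.apply_symm_apply _)
  · intro A B h
    by_contra hAB
    obtain ⟨E, hE, h1, h2⟩ := hU A B hAB
    obtain ⟨g, h3, h4⟩ := exists_sep (ι := Fin 12) (by simp) hE h1 h2 0
    have h5 : g ∈ stab (e.permCongrHom.toMonoidHom.comp (rho (U B))) (e (0, 0)) := by
      rw [mem_stab, happ, h4]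
    have h6 : g ∈ stab (e.permCongrHom.toMonoidHom.comp (rho (U A))) (e (0, 0)) :=
      (SetLike.ext_iff.1 h g).2 h5
    rw [mem_stab, happ] at h6
    exact h3 (e.injective h6)

theorem main : ∃ (G : Type) (_ : Group G),
    Infinite G ∧ FinPresented G ∧ IsSimpleGroup G ∧ Foelner G ∧
    (∃ Γ : ℝ → Subgroup (Perm ℕ), (∀ t, Nonempty (G ≃* Γ t) ∧ HighlyTransitive (Γ t)) ∧
      ∀ (s t : ℝ) (σ : Perm ℕ), MulAut.conj σ • Γ s = Γ t → s = t) ∧
    Cardinal.mk {H : Subgroup G // IsCoatom H} = Cardinal.continuum ∧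
    MixedIdentityFree G ∧ InfiniteGirth G ∧ ¬ UniformlyAmenable G := by
  have := gg_simple
  have := countable_of_fg fg_gg
  obtain ⟨ρ, m, h1, h2⟩ := family_gg
  obtain ⟨a, ha⟩ := exists_nonconj fg_gg ρ (fun A => injective_of_trans (h1 A)) m h2
  exact ⟨GG, inferInstance, gg_infinite, finPresented_gg, gg_simple, foelner_gg,
    ⟨fun t => (ρ (a t)).range,
      fun t => ⟨⟨MonoidHom.ofInjective (injective_of_trans (h1 _))⟩, h1 _⟩, ha⟩,
    card_coatoms _ (fun A => coatom_stab (h1 A) m) h2, mif_gg, girth_gg, not_uniform mif_gg⟩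

end Vale.Agent.N196T
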