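import Vale.Agent.N196T.Defs

/-!
# Highly transitive groups without finitary elements have no mixed identities
-/

namespace Vale.Agent.N196T

open Monoid

section

variable {G : Type} [Group G] {α : Type}

/-- A letter of the free group. -/
def lt (y : α × Bool) : FreeGroup α := cond y.2 (FreeGroup.of y.1) (FreeGroup.of y.1)⁻¹

/-- The element `g₁ y₁ g₂ y₂ ⋯` of the free product. -/
def ev (l : List (G × (α × Bool))) : Coprod G (FreeGroup α) :=
  (l.map fun p => Coprod.inl p.1 * Coprod.inr (lt p.2)).prod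

theorem ev_nil : ev ([] : List (G × (α × Bool))) = 1 := rfl

theorem ev_cons (p : G × (α × Bool)) (l : List (G × (α × Bool))) :
    ev (p :: l) = Coprod.inl p.1 * Coprod.inr (lt p.2) * ev l := by
  simp [ev]

/-- No cancellation between neighbours. -/
def Rel (p q : G × (α × Bool)) : Prop := q.1 = 1 → p.2 ≠ (q.2.1, !q.2.2)

theorem lt_mul_lt (y : α × Bool) : lt (y.1, !y.2) * lt y = 1 := by
  obtain ⟨a, b⟩ := y
  cases b <;> simp [lt]

theorem exists_nf (w : Coprod G (FreeGroup α)) :
    ∃ (l : List (G × (α × Bool))) (g : G), l.IsChain Rel ∧ w = ev l * Coprod.inl g := by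
  have hl : ∀ (y : α × Bool) (x : Coprod G (FreeGroup α)),
      (∃ (l : List (G × (α × Bool))) (g : G), l.IsChain Rel ∧ x = ev l * Coprod.inl g) →
      ∃ (l : List (G × (α × Bool))) (g : G), l.IsChain Rel ∧
        Coprod.inr (lt y) * x = ev l * Coprod.inl g := by
    rintro y x ⟨l, g, hc, rfl⟩
    cases l with
    | nil => exact ⟨[(1, y)], g, List.isChain_singleton _, by simp [ev]⟩
    | cons p l =>
      by_cases h : Rel ((1 : G), y) p
      · refine ⟨(1, y) :: p :: l, g, List.isChain_cons_cons.2 ⟨h, hc⟩, ?_⟩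
        rw [ev_cons (1, y)]
        simp [mul_assoc]
      · simp only [Rel, Classical.not_imp, not_not] at h
        refine ⟨l, g, hc.tail, ?_⟩
        rw [ev_cons, h.1, h.2, map_one, one_mul, ← mul_assoc, ← mul_assoc, ← map_mul, lt_mul_lt,
          map_one, one_mul]
  induction w using Coprod.induction_on' with
  | one => exact ⟨[], 1, List.isChain_nil, by simp [ev]⟩
  | inl_mul m x ih =>
    obtain ⟨l, g, hc, rfl⟩ := ih
    cases l with
    | nil => exact ⟨[], m * g, List.isChain_nil, by simp [ev]⟩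
    | cons p l =>
      refine ⟨(m * p.1, p.2) :: l, g, ?_, ?_⟩
      · cases l with
        | nil => exact List.isChain_singleton _
        | cons q l =>
          rw [List.isChain_cons_cons] at hc ⊢
          exact hc
      · rw [ev_cons, ev_cons]
        simp [mul_assoc]
  | inr_mul n x ih =>
    induction n using FreeGroup.induction_on generalizing x with
    | C1 => simpa using ih
    | of a => exact hl (a, true) x ih
    | inv_of a _ => exact hl (a, false) x ih
    | mul u v ihu ihv =>
      rw [map_mul, mul_assoc]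
      exact ihu _ (ihv _ ih)

variable {X : Type} [MulAction G X]

/-- A system of partial injections, one for each variable. -/
def Valid (T : Set (α × X × X)) : Prop :=
  ∀ a u v u' v', (a, u, v) ∈ T → (a, u', v') ∈ T → (u = u' ↔ v = v')

/-- The points that occur in `T`. -/
def used (T : Set (α × X × X)) : Set X := (fun t => t.2.1) '' T ∪ (fun t => t.2.2) '' T

/-- The requirement that the letter `y` maps `q` to `r`. -/
def tr (y : α × Bool) (q r : X) : α × X × X := cond y.2 (y.1, q, r) (y.1, r, q)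

/-- The substitution `φ` extends `T`. -/
def Ext (φ : α → G) (T : Set (α × X × X)) : Prop := ∀ t ∈ T, φ t.1 • t.2.1 = t.2.2

theorem used_finite {T : Set (α × X × X)} (h : T.Finite) : (used T).Finite :=
  (h.image _).union (h.image _)

theorem used_tr {T : Set (α × X × X)} {y : α × Bool} {q r : X} (h : tr y q r ∈ T) :
    q ∈ used T ∧ r ∈ used T := by
  obtain ⟨a, b⟩ := y
  cases b
  · exact ⟨Or.inr ⟨_, h, rfl⟩, Or.inl ⟨_, h, rfl⟩⟩
  · exact ⟨Or.inl ⟨_, h, rfl⟩, Or.inr ⟨_, h, rfl⟩⟩

theorem valid_insert {T : Set (α × X × X)} (hT : Valid T) {y : α × Bool} {q r : X}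
    (hq : ∀ v, tr y q v ∉ T) (hr : r ∉ used T) : Valid (insert (tr y q r) T) := by
  obtain ⟨a, b⟩ := y
  have h1 : ∀ c u, (c, u, r) ∉ T := fun c u h => hr (Or.inr ⟨_, h, rfl⟩)
  have h2 : ∀ c u, (c, r, u) ∉ T := fun c u h => hr (Or.inl ⟨_, h, rfl⟩)
  intro c u v u' v' h h'
  cases b
  · simp only [tr, cond_false, Set.mem_insert_iff, Prod.mk.injEq] at h h' hq
    rcases h with ⟨rfl, rfl, rfl⟩ | h <;> rcases h' with ⟨h3, rfl, rfl⟩ | h'
    · simp
    · constructor
      · rintro rfl; exact absurd h' (h2 _ _)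
      · rintro rfl; exact absurd h' (hq _)
    · subst h3
      constructor
      · rintro rfl; exact absurd h (h2 _ _)
      · rintro rfl; exact absurd h (hq _)
    · exact hT _ _ _ _ _ h h'
  · simp only [tr, cond_true, Set.mem_insert_iff, Prod.mk.injEq] at h h' hq
    rcases h with ⟨rfl, rfl, rfl⟩ | h <;> rcases h' with ⟨h3, rfl, rfl⟩ | h'
    · simp
    · constructor
      · rintro rfl; exact absurd h' (hq _)
      · rintro rfl; exact absurd h' (h1 _ _)
    · subst h3
      constructor
      · rintro rfl; exact absurd h (hq _)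
      · rintro rfl; exact absurd h (h1 _ _)
    · exact hT _ _ _ _ _ h h'

theorem ext_tr {φ : α → G} {T : Set (α × X × X)} (h : Ext φ T) {y : α × Bool} {q r : X}
    (hy : tr y q r ∈ T) : FreeGroup.lift φ (lt y) • q = r := by
  obtain ⟨a, b⟩ := y
  have := h _ hy
  cases b
  · simp only [tr, cond_false] at this
    simp only [lt, cond_false, map_inv, FreeGroup.lift_apply_of]
    rw [← this, inv_smul_smul]
  · simpa [lt, tr] using this

theorem tr_eq {y y' : α × Bool} {q r v : X} (hrq : r ≠ q) (h : tr y' r v = tr y q r) :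
    y' = (y.1, !y.2) := by
  obtain ⟨a, b⟩ := y
  obtain ⟨a', b'⟩ := y'
  cases b <;> cases b' <;> simp_all [tr]

/-- The main construction. -/
theorem build [Infinite X] (hsupp : ∀ g : G, g ≠ 1 → {x : X | g • x ≠ x}.Infinite)
    (T0 : Set (α × X × X)) (hf : T0.Finite) (hv : Valid T0) (p0 : X) (hp0 : p0 ∉ used T0)
    (b : X) (l : List (G × (α × Bool))) (hl : l.IsChain Rel) :
    ∃ (T : Set (α × X × X)) (q : X), T0 ⊆ T ∧ T.Finite ∧ Valid T ∧
      (∀ φ : α → G, Ext φ T →
        Coprod.lift (MonoidHom.id G) (FreeGroup.lift φ) (ev l) • p0 = q) ∧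
      (l ≠ [] → q ≠ b) ∧
      ∀ y' v, tr y' q v ∈ T → ∃ p ∈ l.head?, p.1 = 1 ∧ y' = (p.2.1, !p.2.2) := by
  induction l with
  | nil =>
    refine ⟨T0, p0, le_rfl, hf, hv, fun φ _ => by simp [ev], fun h => absurd rfl h, ?_⟩
    intro y' v h
    exact absurd (used_tr h).1 hp0
  | cons p l ih =>
    obtain ⟨T, q, hsub, hTf, hTv, hev, -, hinv⟩ := ih hl.tail
    obtain ⟨g, y⟩ := p
    have hq : ∀ v, tr y q v ∉ T := by
      intro v h
      obtain ⟨p', hp', h1, h2⟩ := hinv y v h
      cases l with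
      | nil => simp at hp'
      | cons p'' l =>
        simp only [List.head?_cons, Option.mem_def, Option.some.injEq] at hp'
        subst hp'
        exact (List.isChain_cons_cons.1 hl).1 h1 h2
    set B : Set X := used T ∪ {q, b} with hB
    have hBf : B.Finite := (used_finite hTf).union (Set.toFinite _)
    have hBf' : (B ∪ (fun x => g⁻¹ • x) '' B).Finite := hBf.union (hBf.image _)
    obtain ⟨r, hr1, hr2⟩ : ∃ r, r ∉ B ∪ (fun x => g⁻¹ • x) '' B ∧ (g ≠ 1 → g • r ≠ r) := by
      by_cases hg : g = 1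
      · obtain ⟨r, hr⟩ := hBf'.infinite_compl.nonempty
        exact ⟨r, hr, fun h => absurd hg h⟩
      · obtain ⟨r, hr, hr'⟩ := ((hsupp g hg).sdiff hBf').nonempty
        exact ⟨r, hr', fun _ => hr⟩
    have hrB : r ∉ B := fun h => hr1 (Or.inl h)
    have hgrB : g • r ∉ B := fun h => hr1 (Or.inr ⟨_, h, by simp⟩)
    have hrT : r ∉ used T := fun h => hrB (Or.inl h)
    have hrq : r ≠ q := fun h => hrB (Or.inr (by simp [h]))
    refine ⟨insert (tr y q r) T, g • r, hsub.trans (Set.subset_insert _ _), hTf.insert _,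
      valid_insert hTv hq hrT, ?_, fun _ h => hgrB (Or.inr (by simp [h])), ?_⟩
    · intro φ hφ
      have h1 := hev φ (fun t ht => hφ t (Set.mem_insert_of_mem _ ht))
      rw [ev_cons, map_mul, map_mul, mul_smul, mul_smul, h1, Coprod.lift_apply_inl,
        Coprod.lift_apply_inr, ext_tr hφ (Set.mem_insert _ _)]
      rfl
    · intro y' v h
      rcases Set.mem_insert_iff.1 h with h | h
      · have h3 : g • r = r := by
          have h4 : g • r = q ∨ g • r = r := by
            obtain ⟨a, c⟩ := y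
            obtain ⟨a', c'⟩ := y'
            cases c <;> cases c' <;> simp_all [tr]
          rcases h4 with h4 | h4
          · exact absurd (Or.inr (by simp [h4])) hgrB
          · exact h4
        have hg : g = 1 := by
          by_contra hg
          exact hr2 hg h3
        rw [h3] at h
        exact ⟨(g, y), rfl, hg, tr_eq hrq h⟩
      · exact absurd (Or.inl (used_tr h).1) hgrB

/-- Finite partial injections extend to elements of a highly transitive group. -/
theorem exists_ext
    (ht : ∀ (k : ℕ) (x y : Fin k → X), Function.Injective x → Function.Injective y →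
      ∃ g : G, ∀ i, g • x i = y i)
    (T : Set (α × X × X)) (hf : T.Finite) (hv : Valid T) : ∃ φ : α → G, Ext φ T := by
  have key : ∀ a : α, ∃ g : G, ∀ u v, (a, u, v) ∈ T → g • u = v := by
    intro a
    have hfin : {p : X × X | (a, p) ∈ T}.Finite :=
      hf.preimage (f := fun p : X × X => (a, p)) (fun _ _ _ _ h => by simpa using h)
    have := hfin.to_subtype
    obtain ⟨k, ⟨e⟩⟩ := Finite.exists_equiv_fin {p : X × X | (a, p) ∈ T}
    obtain ⟨g, hg⟩ := ht k (fun i => (e.symm i).1.1) (fun i => (e.symm i).1.2)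
      (fun i j h => e.symm.injective (Subtype.ext (Prod.ext h
        ((hv a _ _ _ _ (e.symm i).2 (e.symm j).2).1 h))))
      (fun i j h => e.symm.injective (Subtype.ext (Prod.ext
        ((hv a _ _ _ _ (e.symm i).2 (e.symm j).2).2 h) h)))
    refine ⟨g, fun u v h => ?_⟩
    simpa using hg (e ⟨(u, v), h⟩)
  choose φ hφ using key
  exact ⟨φ, fun t ht => hφ t.1 t.2.1 t.2.2 ht⟩

/-- One more word. -/
theorem step [Infinite X] (hsupp : ∀ g : G, g ≠ 1 → {x : X | g • x ≠ x}.Infinite)
    (T0 : Set (α × X × X)) (hf : T0.Finite) (hv : Valid T0)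
    (l : List (G × (α × Bool))) (hl : l.IsChain Rel) (g : G) (hne : l ≠ [] ∨ g ≠ 1) :
    ∃ T : Set (α × X × X), T0 ⊆ T ∧ T.Finite ∧ Valid T ∧ ∀ φ : α → G, Ext φ T →
      Coprod.lift (MonoidHom.id G) (FreeGroup.lift φ) (ev l * Coprod.inl g) ≠ 1 := by
  by_cases h : l = []
  · subst h
    refine ⟨T0, le_rfl, hf, hv, fun φ _ => ?_⟩
    simpa [ev] using hne
  · obtain ⟨p0, hp0⟩ := (used_finite hf).infinite_compl.nonempty
    obtain ⟨T, q, h1, h2, h3, h4, h5, -⟩ := build hsupp T0 hf hv p0 hp0 (g⁻¹ • p0) l hl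
    refine ⟨T, h1, h2, h3, fun φ hφ h6 => h5 h ?_⟩
    rw [← h4 φ hφ]
    rw [map_mul, Coprod.lift_apply_inl, MonoidHom.id_apply, mul_eq_one_iff_eq_inv] at h6
    rw [h6]

/-- Reduced words are nontrivial. -/
theorem ev_ne_one [Infinite X] (hsupp : ∀ g : G, g ≠ 1 → {x : X | g • x ≠ x}.Infinite)
    (ht : ∀ (k : ℕ) (x y : Fin k → X), Function.Injective x → Function.Injective y →
      ∃ g : G, ∀ i, g • x i = y i)
    (l : List (G × (α × Bool))) (hl : l.IsChain Rel) (hne : l ≠ []) : ev l ≠ 1 := by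
  obtain ⟨T, -, h2, h3, h4⟩ := step hsupp (∅ : Set (α × X × X)) Set.finite_empty
    (fun _ _ _ _ _ h => h.elim) l hl 1 (Or.inl hne)
  obtain ⟨φ, hφ⟩ := exists_ext ht T h2 h3
  intro h
  apply h4 φ hφ
  rw [h]
  simp

theorem mif [Infinite X] (hsupp : ∀ g : G, g ≠ 1 → {x : X | g • x ≠ x}.Infinite)
    (ht : ∀ (k : ℕ) (x y : Fin k → X), Function.Injective x → Function.Injective y →
      ∃ g : G, ∀ i, g • x i = y i) : MixedIdentityFree G := by
  classical
  intro α W hW
  have key : ∃ T : Set (α × X × X), T.Finite ∧ Valid T ∧ ∀ φ : α → G, Ext φ T →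
      ∀ w ∈ W, Coprod.lift (MonoidHom.id G) (FreeGroup.lift φ) w ≠ 1 := by
    induction W using Finset.induction_on with
    | empty => exact ⟨∅, Set.finite_empty, fun _ _ _ _ _ h => h.elim, fun _ _ _ h => by simp at h⟩
    | insert w W _ ih =>
      obtain ⟨T0, h1, h2, h3⟩ := ih (fun w hw => hW w (Finset.mem_insert_of_mem hw))
      obtain ⟨l, g, hl, hw⟩ := exists_nf w
      have hne : l ≠ [] ∨ g ≠ 1 := by
        by_contra hcon
        push Not at hcon
        apply hW w (Finset.mem_insert_self _ _)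
        rw [hw, hcon.1, hcon.2]
        simp [ev]
      obtain ⟨T, h4, h5, h6, h7⟩ := step hsupp T0 h1 h2 l hl g hne
      refine ⟨T, h5, h6, fun φ hφ w' hw' => ?_⟩
      rcases Finset.mem_insert.1 hw' with rfl | hw'
      · rw [hw]
        exact h7 φ hφ
      · exact h3 φ (fun t ht => hφ t (h4 ht)) w' hw'
  obtain ⟨T, h1, h2, h3⟩ := key
  obtain ⟨φ, hφ⟩ := exists_ext ht T h1 h2
  exact ⟨φ, h3 φ hφ⟩

end

end Vale.Agent.N196T
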